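import Vale.Agent.P359.Data

namespace Vale.Agent.P359

theorem wc0 : chkW 0 = true := by decide +kernel

theorem wc1 : chkW 1 = true := by decide +kernel

theorem wc2 : chkW 2 = true := by decide +kernel

theorem wc3 : chkW 3 = true := by decide +kernel

theorem wc4 : chkW 4 = true := by decide +kernel

theorem wc5 : chkW 5 = true := by decide +kernel

theorem wc6 : chkW 6 = true := by decide +kernel

theorem wc7 : chkW 7 = true := by decide +kernel

theorem wc8 : chkW 8 = true := by decide +kernel

theorem wc9 : chkW 9 = true := by decide +kernel

theorem wc10 : chkW 10 = true := by decide +kernel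

theorem wc11 : chkW 11 = true := by decide +kernel

theorem wc12 : chkW 12 = true := by decide +kernel

theorem wc13 : chkW 13 = true := by decide +kernel

theorem wc14 : chkW 14 = true := by decide +kernel

theorem wc15 : chkW 15 = true := by decide +kernel

theorem wc16 : chkW 16 = true := by decide +kernel

theorem wc17 : chkW 17 = true := by decide +kernel

theorem wc18 : chkW 18 = true := by decide +kernel

theorem chkW_lo (t : ℕ) (h1 : 0 ≤ t) (h2 : t < 19) : chkW t = true := by
  interval_cases t
  exacts [wc0, wc1, wc2, wc3, wc4, wc5, wc6, wc7, wc8, wc9, wc10, wc11, wc12, wc13, wc14, wc15, wc16, wc17, wc18]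

end Vale.Agent.P359
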