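import Vale.Agent.P359.Data

namespace Vale.Agent.P359

theorem wc19 : chkW 19 = true := by decide +kernel

theorem wc20 : chkW 20 = true := by decide +kernel

theorem wc21 : chkW 21 = true := by decide +kernel

theorem wc22 : chkW 22 = true := by decide +kernel

theorem wc23 : chkW 23 = true := by decide +kernel

theorem wc24 : chkW 24 = true := by decide +kernel

theorem wc25 : chkW 25 = true := by decide +kernel

theorem wc26 : chkW 26 = true := by decide +kernel

theorem wc27 : chkW 27 = true := by decide +kernel

theorem wc28 : chkW 28 = true := by decide +kernel

theorem wc29 : chkW 29 = true := by decide +kernel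

theorem wc30 : chkW 30 = true := by decide +kernel

theorem wc31 : chkW 31 = true := by decide +kernel

theorem wc32 : chkW 32 = true := by decide +kernel

theorem wc33 : chkW 33 = true := by decide +kernel

theorem wc34 : chkW 34 = true := by decide +kernel

theorem wc35 : chkW 35 = true := by decide +kernel

theorem wc36 : chkW 36 = true := by decide +kernel

theorem chkW_hi (t : ℕ) (h1 : 19 ≤ t) (h2 : t < 37) : chkW t = true := by
  interval_cases t
  exacts [wc19, wc20, wc21, wc22, wc23, wc24, wc25, wc26, wc27, wc28, wc29, wc30, wc31, wc32, wc33, wc34, wc35, wc36]

end Vale.Agent.P359
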